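import Vale.Agent.P284.H894.W.Spec2
import Vale.Agent.P284.H5.V16
import Vale.Agent.P284.H977.Lift
import Vale.Agent.P284.H465.V19
import Vale.Agent.P284.H409.Core
import Mathlib.Topology.Connected.Clopen
import Mathlib.Analysis.Calculus.InverseFunctionTheorem.FDeriv
import Mathlib.Analysis.Normed.Module.FiniteDimension

/-!
# P284, theorem W (helper894): assembly of the fibre step, `FibStmt2`.
-/

open scoped Manifold ContDiff Topology Pointwise ComplexConjugate ComplexOrder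
open Filter Set Metric MeasureTheory

noncomputable section

namespace Vale.Agent.P284.H894.W

open Vale.Agent.P272.K Vale.Agent.P284.H248 Vale.Agent.P284.H894 Vale.Agent.P284.H894.G
  Vale.Agent.P284.H894.V

/-! ### Groups -/

theorem fg_of_finiteIndex {K : Type*} [Group K] (S : Subgroup K) [S.FiniteIndex]
    (hS : Group.FG S) : Group.FG K := by
  classical
  have hfin : Finite (K ⧸ S) := Subgroup.finite_quotient_of_finiteIndex
  rw [Group.fg_iff_subgroup_fg] at hS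
  rw [Group.fg_iff]
  obtain ⟨T, hT, hTf⟩ := (Subgroup.fg_iff S).1 hS
  refine ⟨T ∪ Set.range (fun q : K ⧸ S => Quotient.out q), ?_,
    hTf.union (Set.finite_range _)⟩
  rw [eq_top_iff]
  intro g _
  have h1 : (Quotient.out (g : K ⧸ S))⁻¹ * g ∈ S := by
    rw [← QuotientGroup.eq, QuotientGroup.out_eq']
  have h2 : (Quotient.out (g : K ⧸ S)) ∈
      Subgroup.closure (T ∪ Set.range (fun q : K ⧸ S => Quotient.out q)) :=
    Subgroup.subset_closure (Or.inr ⟨_, rfl⟩)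
  have h3 : (Quotient.out (g : K ⧸ S))⁻¹ * g ∈
      Subgroup.closure (T ∪ Set.range (fun q : K ⧸ S => Quotient.out q)) := by
    refine Subgroup.closure_mono subset_union_left ?_
    rw [hT]; exact h1
  have h4 := mul_mem h2 h3
  rwa [mul_inv_cancel_left] at h4

theorem virtIndicable_of_finiteIndex {K : Type*} [Group K] (S : Subgroup K) [hS : S.FiniteIndex]
    (h : VirtIndicable S) : VirtIndicable K := by
  obtain ⟨H, hH, φ, hφ⟩ := h
  refine ⟨H.map S.subtype, ?_, ?_⟩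
  · refine ⟨?_⟩
    rw [Subgroup.index_map_subtype]
    exact mul_ne_zero hH.index_ne_zero hS.index_ne_zero
  · let e : H ≃* H.map S.subtype := H.equivMapOfInjective S.subtype S.subtype_injective
    exact ⟨φ.comp e.symm.toMonoidHom, hφ.comp e.symm.surjective⟩

/-! ### Topology and calculus -/

section
variable {n : ℕ} {X : Type} [TopologicalSpace X] [ChartedSpace (Cm n) X]
  {E : Type} [TopologicalSpace E]

theorem HolB.continuous {p : E → X} (hp : IsCoveringMap p)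
    {w : Chart n X → Cm n → Matrix (Fin n) (Fin n) ℂ} {N : ℕ} {F : E → Cm N} {B : ℝ}
    (h : HolB p w F B) : Continuous F := by
  rw [continuous_iff_continuousAt]
  intro y
  have hAt : At (chartAt (Cm n) (p y)) (p y) := H5.V.at_chartAt _
  obtain ⟨f, h1, h2, -⟩ := h y _ hAt
  have h3 : ContinuousAt (fun y' => f (chartAt (Cm n) (p y) (p y'))) y := by
    have h4 : ContinuousAt (chartAt (Cm n) (p y)) (p y) :=
      (chartAt (Cm n) (p y)).continuousAt (mem_chart_source _ _)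
    have h5 : ContinuousAt (fun y' => chartAt (Cm n) (p y) (p y')) y :=
      ContinuousAt.comp (g := chartAt (Cm n) (p y)) h4 hp.continuous.continuousAt
    exact ContinuousAt.comp (g := f) h2.self_of_nhds.continuousAt h5
  exact h3.congr (h1.mono fun y' hy' => hy'.symm)

theorem inj_ev [IsManifold 𝓘(ℂ, Cm n) ω X] {Φ : Cm n → X}
    (hΦ : ContMDiff 𝓘(ℂ, Cm n) 𝓘(ℂ, Cm n) ω Φ) {ζ₀ : Cm n}
    (hinj : Function.Injective (mfderiv 𝓘(ℂ, Cm n) 𝓘(ℂ, Cm n) Φ ζ₀)) :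
    ∀ᶠ ζ in 𝓝 ζ₀, Function.Injective (mfderiv 𝓘(ℂ, Cm n) 𝓘(ℂ, Cm n) Φ ζ) := by
  set e := chartAt (Cm n) (Φ ζ₀) with he
  have hAt : At e (Φ ζ₀) := H5.V.at_chartAt _
  have hτ : ContDiffAt ℂ ω (fun ξ => e (Φ ξ)) ζ₀ := H5.V.tau_smooth hΦ hAt
  have hmd : MDifferentiableAt 𝓘(ℂ, Cm n) 𝓘(ℂ, Cm n) Φ ζ₀ :=
    hΦ.contMDiffAt.mdifferentiableAt (by simp)
  have h1 : mfderiv 𝓘(ℂ, Cm n) 𝓘(ℂ, Cm n) Φ ζ₀ = fderiv ℂ (fun ξ => e (Φ ξ)) ζ₀ := by
    rw [hmd.mfderiv]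
    simp only [writtenInExtChartAt, mfld_simps, fderivWithin_univ]
    rfl
  rw [h1] at hinj
  have h2 : ContinuousAt (fderiv ℂ (fun ξ => e (Φ ξ))) ζ₀ :=
    (hτ.fderiv_right (m := 0) (by simp)).continuousAt
  have h3 : ∀ᶠ ζ in 𝓝 ζ₀, Function.Injective (fderiv ℂ (fun ξ => e (Φ ξ)) ζ) :=
    h2.eventually (ContinuousLinearMap.isOpen_injective.mem_nhds hinj)
  have h4 : ∀ᶠ ζ in 𝓝 ζ₀, Φ ζ ∈ e.source :=
    hΦ.continuous.continuousAt.eventually (e.open_source.mem_nhds (mem_chart_source _ _))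
  filter_upwards [h3, h4] with ζ h5 h6
  have h7 : MDifferentiableAt 𝓘(ℂ, Cm n) 𝓘(ℂ, Cm n) e (Φ ζ) :=
    mdifferentiableAt_atlas (chart_mem_atlas _ _) h6
  have h8 : MDifferentiableAt 𝓘(ℂ, Cm n) 𝓘(ℂ, Cm n) Φ ζ :=
    hΦ.contMDiffAt.mdifferentiableAt (by simp)
  have h9 := mfderiv_comp ζ h7 h8
  intro v v' hv
  refine h5 ?_
  have h10 : mfderiv 𝓘(ℂ, Cm n) 𝓘(ℂ, Cm n) (e ∘ Φ) ζ = fderiv ℂ (fun ξ => e (Φ ξ)) ζ :=
    mfderiv_eq_fderiv
  rw [← h10, h9]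
  show (mfderiv 𝓘(ℂ, Cm n) 𝓘(ℂ, Cm n) e (Φ ζ)) ((mfderiv 𝓘(ℂ, Cm n) 𝓘(ℂ, Cm n) Φ ζ) v) =
    (mfderiv 𝓘(ℂ, Cm n) 𝓘(ℂ, Cm n) e (Φ ζ)) ((mfderiv 𝓘(ℂ, Cm n) 𝓘(ℂ, Cm n) Φ ζ) v')
  rw [hv]

omit [TopologicalSpace E] in
theorem contDiff_eval (q : MvPolynomial (Fin n) ℂ) {k : WithTop ℕ∞} :
    ContDiff ℂ k fun ζ : Cm n => MvPolynomial.eval ζ q := by
  induction q using MvPolynomial.induction_on with
  | C a => simp only [MvPolynomial.eval_C]; exact contDiff_const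
  | add a b ha hb => simp only [map_add]; exact ha.add hb
  | mul_X a i ha =>
    simp only [map_mul, MvPolynomial.eval_X]
    exact ha.mul (contDiff_apply ℂ ℂ i)

theorem isClosed_comp {F : E → Cm n} (hF : Continuous F) (x : E) :
    IsClosed (connectedComponentIn (F ⁻¹' {F x}) x) := by
  have h1 : IsPreconnected (closure (connectedComponentIn (F ⁻¹' {F x}) x)) :=
    isPreconnected_connectedComponentIn.closure
  have h2 : closure (connectedComponentIn (F ⁻¹' {F x}) x) ⊆ F ⁻¹' {F x} :=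
    closure_minimal (connectedComponentIn_subset _ _) (isClosed_singleton.preimage hF)
  have h3 : x ∈ closure (connectedComponentIn (F ⁻¹' {F x}) x) :=
    subset_closure (mem_connectedComponentIn rfl)
  have h4 := h1.subset_connectedComponentIn h3 h2
  exact closure_subset_iff_isClosed.1 h4

end

theorem fibStmt2 : FibStmt2 := by
  intro hR hS4 hG hFD h1 h15 h17 h18 n X _ _ _ _ _ _ w hw Φ hΦ E Γ _ _ _ _ p hp hgr G K N F c hAl hK
  obtain ⟨Φl, hΦl, hpΦ⟩ := H977.liftStmt n X E p hp.cov hp.surj Φ hΦ.holo.continuous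
  obtain ⟨P, hP, ζ₀, hζR, hζi, hζs⟩ := hR n X w hw Φ hΦ E Γ p hp G K N F c hAl Φl hΦl hpΦ
  obtain ⟨T, hTc, hTi, hT⟩ :=
    hS4 n X w hw Φ hΦ.holo E Γ p hp G K N F c hAl Φl hΦl hpΦ P hP ⟨ζ₀, hζs⟩
  have hae := hFD n X w hw Φ hΦ E p hp.cov N F hAl.hol Φl hΦl hpΦ P hP ⟨ζ₀, hζs⟩
  obtain ⟨B₀, hB₀⟩ := hAl.hol
  have hFc : Continuous F := HolB.continuous hp.cov hB₀
  have hcd : ContDiff ℂ 1 (fun ζ => F (Φl ζ)) := by
    rw [contDiff_pi]
    intro i
    have h3 : (fun ζ => F (Φl ζ) i) = fun ζ => MvPolynomial.eval ζ (P i) := by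
      funext ζ; exact hP ζ i
    rw [h3]
    exact contDiff_eval (P i)
  -- a good point near `ζ₀`
  obtain ⟨O, hO1, hO2, hO3⟩ := _root_.eventually_nhds_iff.1 (inj_ev hΦ.holo hζi)
  have hne : (O ∩ {ζ | F (Φl ζ) ∉ T}).Nonempty := by
    have h4 : map (fun ζ => F (Φl ζ)) (𝓝 ζ₀) = 𝓝 (F (Φl ζ₀)) :=
      (hcd.contDiffAt.hasStrictFDerivAt (by simp)).map_nhds_eq_of_surj
        (LinearMap.range_eq_top.2 hζs)
    have h5 : (fun ζ => F (Φl ζ)) '' O ∈ 𝓝 (F (Φl ζ₀)) := by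
      rw [← h4]; exact image_mem_map (hO2.mem_nhds hO3)
    by_contra hcon
    rw [Set.not_nonempty_iff_eq_empty] at hcon
    have h6 : (fun ζ => F (Φl ζ)) '' O ⊆ T := by
      rintro _ ⟨ζ, hζ, rfl⟩
      by_contra h7
      have : ζ ∈ O ∩ {ζ | F (Φl ζ) ∉ T} := ⟨hζ, h7⟩
      rw [hcon] at this
      exact this
    have h7 : F (Φl ζ₀) ∈ interior T := mem_interior_iff_mem_nhds.2 (mem_of_superset h5 h6)
    rw [hTi] at h7
    exact h7
  have hop : IsOpen (O ∩ {ζ | F (Φl ζ) ∉ T}) :=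
    hO2.inter (hTc.isOpen_compl.preimage (hFc.comp hΦl))
  obtain ⟨ζ₁, hb, hζ₁O, hT1⟩ := (Measure.dense_of_ae hae).exists_mem_open hop hne
  have hi1 := hO1 ζ₁ hζ₁O
  obtain ⟨hreg, S, hSK, hSf, hSV, hOp, hQ⟩ := hT (Φl ζ₁) hT1
  have hb' := hb hi1 hreg
  set V₁ := connectedComponentIn (F ⁻¹' {F (Φl ζ₁)}) (Φl ζ₁) with hV₁
  obtain ⟨V, hVf, hVm⟩ := hb'
  have hxV : Φl ζ₁ ∈ V₁ := mem_connectedComponentIn rfl
  have hVsub : V₁ ⊆ F ⁻¹' {F (Φl ζ₁)} := connectedComponentIn_subset _ _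
  have hconn : IsConnected V₁ := ⟨⟨_, hxV⟩, isPreconnected_connectedComponentIn⟩
  have hcl : IsClosed V₁ := isClosed_comp hFc _
  obtain ⟨m, Y, _, _, _, _, _, _, w₁, _, p₁, hm, hw₁, hact, hGal, hal⟩ :=
    hG n X w hw E Γ p hp N F hAl.hol S (F (Φl ζ₁)) V₁ (fun s hs y => by
      have h3 := (hAl.mem s).1 (hSK hs)
      rw [hAl.equiv s h3.1 y, h3.2, add_zero]) hSV hconn (fun y hy => hVsub hy) hOp hcl
      (fun y hy => hreg y (hVsub hy)) hQ
  have : ConnectedSpace V₁ := isConnected_iff_connectedSpace.1 hconn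
  obtain ⟨_, _, _, hSfg, -⟩ := h15 m Y w₁ hw₁ V₁ S p₁ hGal
  let e : S.subgroupOf K ≃* S := Subgroup.subgroupOfEquivOfLe hSK
  have hSKfg : Group.FG (S.subgroupOf K) :=
    Group.fg_of_surjective (f := e.symm.toMonoidHom) e.symm.surjective
  have hKfg : Group.FG K := fg_of_finiteIndex (S.subgroupOf K) hSKfg
  have hSinf : Infinite S := by
    by_contra hcon
    rw [not_infinite_iff_finite] at hcon
    have h3 : Finite (S.subgroupOf K) := Finite.of_equiv S e.symm.toEquiv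
    have h4 : Finite (K ⧸ S.subgroupOf K) := Subgroup.finite_quotient_of_finiteIndex
    have h5 : Finite K :=
      Finite.of_equiv _ (Subgroup.groupEquivQuotientProdSubgroup (s := S.subgroupOf K)).symm
    exact not_finite K
  have hSE : H409.SubExp Γ := hgr
  have hSs : SubexpGrowth S := hSE.subgroup S
  have hfol : Folner S := hSs.folner
  obtain ⟨v, B, hv, hne'⟩ := h1 m Y w₁ hw₁ V₁ S p₁ hGal hSinf hfol
  have hle : H5.V.phb p₁ w₁ ≤ V := by
    rintro u ⟨B', hu⟩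
    exact hVm u ⟨B', hal u B' hu⟩
  have hfd : FiniteDimensional ℝ (H5.V.phb p₁ w₁) := Submodule.finiteDimensional_of_le hle
  obtain ⟨ρ, -, hρ⟩ := h17 m Y w₁ hw₁.toIsHermitian V₁ S p₁ hGal (H5.V.phb p₁ w₁)
    (fun u => Iff.rfl) v ⟨B, hv⟩ hne'
  have hVI : VirtIndicable S := h18 S hSfg hfol (H5.V.phb p₁ w₁) ρ hρ
  exact ⟨hKfg, virtIndicable_of_finiteIndex (S.subgroupOf K)
    (H465.V19.virtIndicable_of_equiv e.symm hVI)⟩

end Vale.Agent.P284.H894.W
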