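import Vale.Agent.P284.H894.W.Spec

/-!
# P284, theorem W for maps of finite order (integral condition `FiniteOrder` instead of `PolyMap`)
-/

open scoped Manifold ContDiff Topology Pointwise ComplexConjugate ComplexOrder
open Filter Set Metric MeasureTheory

noncomputable section

namespace Vale.Agent.P284.H894.W

open Vale.Agent.P272.K Vale.Agent.P284.H248 Vale.Agent.P284.H894 Vale.Agent.P284.H894.G
  Vale.Agent.P284.H894.V

/-- **WALB2** -/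
def AlbStmt2 : Prop :=
  ∀ (n : ℕ) (X : Type) [TopologicalSpace X] [T2Space X] [CompactSpace X] [ConnectedSpace X]
    [ChartedSpace (Cm n) X] [IsManifold 𝓘(ℂ, Cm n) ω X]
    (w : Chart n X → Cm n → Matrix (Fin n) (Fin n) ℂ), IsKahler w →
    ∀ Φ : Cm n → X, FiniteOrder w Φ →
    ∀ (E Γ : Type) [TopologicalSpace E] [SimplyConnectedSpace E] [Group Γ] [MulAction Γ E]
      (p : E → X), IsGalois Γ p →
    ∃ (G K : Subgroup Γ) (N : ℕ) (F : E → Cm N) (c : Γ → Cm N), Alb p w G K F c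

/-- **WS3** for finite order: `P = F ∘ Φ~` is polynomial, of rank `N` somewhere. -/
def RankStmt2 : Prop :=
  ∀ (n : ℕ) (X : Type) [TopologicalSpace X] [T2Space X] [CompactSpace X] [ConnectedSpace X]
    [ChartedSpace (Cm n) X] [IsManifold 𝓘(ℂ, Cm n) ω X]
    (w : Chart n X → Cm n → Matrix (Fin n) (Fin n) ℂ), IsKahler w →
    ∀ Φ : Cm n → X, FiniteOrder w Φ →
    ∀ (E Γ : Type) [TopologicalSpace E] [ConnectedSpace E] [Group Γ] [MulAction Γ E]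
      (p : E → X), IsGalois Γ p →
    ∀ (G K : Subgroup Γ) (N : ℕ) (F : E → Cm N) (c : Γ → Cm N), Alb p w G K F c →
    ∀ Φl : Cm n → E, Continuous Φl → (∀ ζ, p (Φl ζ) = Φ ζ) →
    ∃ P : Fin N → MvPolynomial (Fin n) ℂ, (∀ ζ i, F (Φl ζ) i = MvPolynomial.eval ζ (P i)) ∧
      ∃ ζ, Reg (n := n) p F (Φl ζ) ∧ Function.Injective (mfderiv 𝓘(ℂ, Cm n) 𝓘(ℂ, Cm n) Φ ζ) ∧
        Function.Surjective (fderiv ℂ (fun ζ => F (Φl ζ)) ζ)

/-- **WS4** without growth hypothesis. -/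
def S4Stmt2 : Prop :=
  ∀ (n : ℕ) (X : Type) [TopologicalSpace X] [T2Space X] [CompactSpace X] [ConnectedSpace X]
    [ChartedSpace (Cm n) X] [IsManifold 𝓘(ℂ, Cm n) ω X]
    (w : Chart n X → Cm n → Matrix (Fin n) (Fin n) ℂ), IsKahler w →
    ∀ Φ : Cm n → X, ContMDiff 𝓘(ℂ, Cm n) 𝓘(ℂ, Cm n) ω Φ →
    ∀ (E Γ : Type) [TopologicalSpace E] [ConnectedSpace E] [Group Γ] [MulAction Γ E]
      (p : E → X), IsGalois Γ p →
    ∀ (G K : Subgroup Γ) (N : ℕ) (F : E → Cm N) (c : Γ → Cm N), Alb p w G K F c →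
    ∀ Φl : Cm n → E, Continuous Φl → (∀ ζ, p (Φl ζ) = Φ ζ) →
    ∀ P : Fin N → MvPolynomial (Fin n) ℂ, (∀ ζ i, F (Φl ζ) i = MvPolynomial.eval ζ (P i)) →
    (∃ ζ, Function.Surjective (fderiv ℂ (fun ζ => F (Φl ζ)) ζ)) →
    ∃ T : Set (Cm N), IsClosed T ∧ interior T = ∅ ∧ ∀ x : E, F x ∉ T →
      (∀ y, F y = F x → Reg (n := n) p F y) ∧
      ∃ S : Subgroup Γ, S ≤ K ∧ (S.subgroupOf K).FiniteIndex ∧
        (∀ s ∈ S, ∀ y ∈ connectedComponentIn (F ⁻¹' {F x}) x,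
          s • y ∈ connectedComponentIn (F ⁻¹' {F x}) x) ∧
        (∃ O : Set E, IsOpen O ∧ connectedComponentIn (F ⁻¹' {F x}) x = F ⁻¹' {F x} ∩ O) ∧
        ∃ Q : Set E, IsCompact Q ∧ ∀ y ∈ connectedComponentIn (F ⁻¹' {F x}) x,
          ∃ s ∈ S, s • y ∈ Q

/-- **WFD2** for maps of finite order: `ζ₁` outside a null set. -/
def FDStmt2 : Prop :=
  ∀ (n : ℕ) (X : Type) [TopologicalSpace X] [T2Space X] [CompactSpace X] [ConnectedSpace X]
    [ChartedSpace (Cm n) X] [IsManifold 𝓘(ℂ, Cm n) ω X]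
    (w : Chart n X → Cm n → Matrix (Fin n) (Fin n) ℂ), IsKahler w →
    ∀ Φ : Cm n → X, FiniteOrder w Φ →
    ∀ (E : Type) [TopologicalSpace E] [ConnectedSpace E] (p : E → X), IsCoveringMap p →
    ∀ (N : ℕ) (F : E → Cm N), (∃ B, HolB p w F B) →
    ∀ Φl : Cm n → E, Continuous Φl → (∀ ζ, p (Φl ζ) = Φ ζ) →
    ∀ P : Fin N → MvPolynomial (Fin n) ℂ, (∀ ζ i, F (Φl ζ) i = MvPolynomial.eval ζ (P i)) →
    (∃ ζ, Function.Surjective (fderiv ℂ (fun ζ => F (Φl ζ)) ζ)) →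
    ∀ᵐ ζ₁ : Cm n, Function.Injective (mfderiv 𝓘(ℂ, Cm n) 𝓘(ℂ, Cm n) Φ ζ₁) →
      (∀ y, F y = F (Φl ζ₁) → Reg (n := n) p F y) →
      ∃ V : Submodule ℝ (connectedComponentIn (F ⁻¹' {F (Φl ζ₁)}) (Φl ζ₁) → ℝ),
        FiniteDimensional ℝ V ∧ ∀ u,
          (∃ B, Along p w (connectedComponentIn (F ⁻¹' {F (Φl ζ₁)}) (Φl ζ₁)) u B) → u ∈ V

/-- **WFIB2** -/
def FibConcl2 : Prop :=
  ∀ (n : ℕ) (X : Type) [TopologicalSpace X] [T2Space X] [CompactSpace X] [ConnectedSpace X]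
    [ChartedSpace (Cm n) X] [IsManifold 𝓘(ℂ, Cm n) ω X]
    (w : Chart n X → Cm n → Matrix (Fin n) (Fin n) ℂ), IsKahler w →
    ∀ Φ : Cm n → X, FiniteOrder w Φ →
    ∀ (E Γ : Type) [TopologicalSpace E] [SimplyConnectedSpace E] [Group Γ] [MulAction Γ E]
      (p : E → X), IsGalois Γ p → SubexpGrowth Γ →
    ∀ (G K : Subgroup Γ) (N : ℕ) (F : E → Cm N) (c : Γ → Cm N), Alb p w G K F c →
    Infinite K → Group.FG K ∧ VirtIndicable K

/-- **WFIB2**: assembly, as `FibStmt`. -/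
def FibStmt2 : Prop :=
  RankStmt2 → S4Stmt2 → GeoStmt → FDStmt2 → Part1 → V15Stmt → V17Stmt → V18Stmt → FibConcl2

/-- Theorem W for the group of a simply connected covering. -/
def MainSC2 : Prop :=
  ∀ (n : ℕ) (X : Type) [TopologicalSpace X] [T2Space X] [CompactSpace X] [ConnectedSpace X]
    [ChartedSpace (Cm n) X] [IsManifold 𝓘(ℂ, Cm n) ω X]
    (w : Chart n X → Cm n → Matrix (Fin n) (Fin n) ℂ), IsKahler w →
    ∀ Φ : Cm n → X, FiniteOrder w Φ →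
    ∀ (E Γ : Type) [TopologicalSpace E] [SimplyConnectedSpace E] [Group Γ] [MulAction Γ E]
      (p : E → X), IsGalois Γ p → SubexpGrowth Γ → VirtuallyAbelian Γ

/-- Theorem W for the fundamental group. -/
def MainPi2 : Prop :=
  ∀ (n : ℕ) (X : Type) [TopologicalSpace X] [T2Space X] [CompactSpace X] [ConnectedSpace X]
    [ChartedSpace (Cm n) X] [IsManifold 𝓘(ℂ, Cm n) ω X]
    (w : Chart n X → Cm n → Matrix (Fin n) (Fin n) ℂ), IsKahler w →
    ∀ Φ : Cm n → X, FiniteOrder w Φ → ∀ x : X, SubexpGrowth (FundamentalGroup X x) →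
    VirtuallyAbelian (FundamentalGroup X x)

/-- **WPI1** for finite order -/
def PiStmt2 : Prop := MainSC2 → MainPi2

theorem mainSC2_of (h15 : V15Stmt) (hA : AlbStmt2) (hR : RankStmt2) (hF : FibConcl2)
    (hG : GrpStmt) (hS : StkStmt) (hN : FinStmt) (hL : LiftStmt) : MainSC2 := by
  intro n X _ _ _ _ _ _ w hw Φ hΦ E Γ _ _ _ _ p hp hgr
  obtain ⟨_, _, _, hfg, -⟩ := h15 n X w hw E Γ p hp
  obtain ⟨G, K, N, F, c, hAl⟩ := hA n X w hw Φ hΦ E Γ p hp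
  have hadd := alb_add hAl
  by_cases hK : Finite K
  · exact hN Γ hfg G K hAl.fi N c hadd hAl.mem hK
  exfalso
  rw [not_finite_iff_infinite] at hK
  obtain ⟨hKf, hKv⟩ := hF n X w hw Φ hΦ E Γ p hp hgr G K N F c hAl hK
  obtain ⟨G₂, hG₂, hle, f, B, hf, k, hk, hk0, hfk⟩ :=
    hG Γ hgr hfg G K hAl.fi N c hadd hAl.mem hAl.disc hAl.span hKf hKv
  obtain ⟨Φl, hΦl, hpΦ⟩ := hL n X E p hp.cov hp.surj Φ hΦ.holo.continuous
  obtain ⟨P, -, ζ, hζ, -⟩ := hR n X w hw Φ hΦ E Γ p hp G K N F c hAl Φl hΦl hpΦ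
  have hsym := hS n X w hw E Γ p hp N F hAl.hol ⟨_, hζ⟩ G₂ c hG₂
    (fun g hg y => hAl.equiv g (hle hg) y) f B hf
  have h1 := hAl.max G₂ hG₂ hle (fun g => f g - B (c g) (c g) / 2) (by
    intro g hg h hh
    show f (g * h) - B (c (g * h)) (c (g * h)) / 2 = _
    rw [hf g hg h hh, hadd g (hle hg) h (hle hh)]
    simp only [map_add, LinearMap.add_apply]
    rw [hsym (c h) (c g)]
    ring) k hk hk0
  apply hfk
  rw [hk0] at h1
  simpa using h1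

/-! ### S4 in three pieces -/

/-- `y` and `y'` lie in the same component of a fibre of `F`. -/
def Same {E : Type} [TopologicalSpace E] {N : ℕ} (F : E → Cm N) (y y' : E) : Prop :=
  y' ∈ connectedComponentIn (F ⁻¹' {F y}) y

/-- **WS4A** (thin sets): off the closed set `T` of critical values and zeros of `a`, `E` is still
connected. -/
def S4aStmt : Prop :=
  ∀ (n : ℕ) (X : Type) [TopologicalSpace X] [T2Space X] [CompactSpace X] [ConnectedSpace X]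
    [ChartedSpace (Cm n) X] [IsManifold 𝓘(ℂ, Cm n) ω X]
    (w : Chart n X → Cm n → Matrix (Fin n) (Fin n) ℂ), IsKahler w →
    ∀ (E Γ : Type) [TopologicalSpace E] [ConnectedSpace E] [Group Γ] [MulAction Γ E]
      (p : E → X), IsGalois Γ p →
    ∀ (G K : Subgroup Γ) (N : ℕ) (F : E → Cm N) (c : Γ → Cm N), Alb p w G K F c →
    (∃ y, Reg (n := n) p F y) → ∀ a : MvPolynomial (Fin N) ℂ, a ≠ 0 →
    ∃ T : Set (Cm N), IsClosed T ∧ interior T = ∅ ∧ (∀ v, MvPolynomial.eval v a = 0 → v ∈ T) ∧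
      (∀ y, ¬ Reg (n := n) p F y → F y ∈ T) ∧ IsPreconnected (F ⁻¹' Tᶜ)

/-- **WS4B** (boxes): the components of the fibres are locally constant near a regular fibre, and the
action of `K` on the components has the properties used in `S4Stmt2`. -/
def S4bStmt : Prop :=
  ∀ (n : ℕ) (X : Type) [TopologicalSpace X] [T2Space X] [CompactSpace X] [ConnectedSpace X]
    [ChartedSpace (Cm n) X] [IsManifold 𝓘(ℂ, Cm n) ω X]
    (w : Chart n X → Cm n → Matrix (Fin n) (Fin n) ℂ), IsKahler w →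
    ∀ (E Γ : Type) [TopologicalSpace E] [ConnectedSpace E] [Group Γ] [MulAction Γ E]
      (p : E → X), IsGalois Γ p →
    ∀ (G K : Subgroup Γ) (N : ℕ) (F : E → Cm N) (c : Γ → Cm N), Alb p w G K F c →
    ∀ y₀ : Cm N, (∀ y, F y = y₀ → Reg (n := n) p F y) →
    (∀ y y', F y = y₀ → F y' = y₀ → ∃ U ∈ 𝓝 y, ∃ U' ∈ 𝓝 y', ∀ x ∈ U, ∀ x' ∈ U', F x = F x' →
      (Same F x x' ↔ Same F y y')) ∧
    (∀ x, F x = y₀ → ∃ O : Set E, IsOpen O ∧ connectedComponentIn (F ⁻¹' {F x}) x = F ⁻¹' {F x} ∩ O) ∧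
    ∃ Q : Set E, IsCompact Q ∧ ∀ y, F y = y₀ → ∃ k ∈ K, k • y ∈ Q

/-- **WS4C**: assembly (c1 for `P` restricted to an `N`-plane: proper with finite fibres off `a = 0`). -/
def S4cStmt : Prop := S4aStmt → S4bStmt → S4Stmt2

end Vale.Agent.P284.H894.W
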