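import Vale.Agent.P284.H894.W.Defs
import Vale.Agent.P284.H894.V.Spec
import Mathlib.RingTheory.MvPolynomial.Basic
import Mathlib.Algebra.MvPolynomial.Eval

/-!
# P284, theorem W: interfaces and assembly (design: helper409, board #13927, #14112)

`X` compact Kähler, `π₁(X)` of subexponential growth, `Φ : ℂⁿ → X` holomorphic, nondegenerate, with
derivative of polynomial growth. Then `π₁(X)` is virtually abelian.
-/

open scoped Manifold ContDiff Topology Pointwise ComplexConjugate ComplexOrder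
open Filter Set Metric MeasureTheory

noncomputable section

namespace Vale.Agent.P284.H894.W

open Vale.Agent.P272.K Vale.Agent.P284.H248 Vale.Agent.P284.H894 Vale.Agent.P284.H894.G
  Vale.Agent.P284.H894.V

section
variable {n : ℕ} {X : Type} [TopologicalSpace X] [ChartedSpace (Cm n) X]
  {E : Type} [TopologicalSpace E]

/-- `F : E → ℂᴺ` is holomorphic with bounded derivative. -/
def HolB (p : E → X) (w : Chart n X → Cm n → Matrix (Fin n) (Fin n) ℂ) {N : ℕ} (F : E → Cm N)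
    (B : ℝ) : Prop :=
  ∀ (y : E) (e : Chart n X), At e (p y) → ∃ f : Cm n → Cm N,
    (∀ᶠ y' in 𝓝 y, F y' = f (e (p y'))) ∧ (∀ᶠ z in 𝓝 (e (p y)), DifferentiableAt ℂ f z) ∧
    ∀ v : Cm n, ‖fderiv ℂ f (e (p y)) v‖ ^ 2 ≤
      B * (∑ j, ∑ k, w e (e (p y)) j k * v j * conj (v k)).re

/-- `y` is a regular point of `F : E → ℂᴺ`. -/
def Reg (p : E → X) {N : ℕ} (F : E → Cm N) (y : E) : Prop :=
  ∀ (e : Chart n X) (f : Cm n → Cm N), At e (p y) → (∀ᶠ y' in 𝓝 y, F y' = f (e (p y'))) →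
    Function.Surjective (fderiv ℂ f (e (p y)))

/-- the map `g` from an open set of `ℂᵏ` to the covering space `E` of `X` is holomorphic at `t` -/
def HolTo (p : E → X) {k : ℕ} (g : Cm k → E) (t : Cm k) : Prop :=
  ContinuousAt g t ∧ ∀ e : Chart n X, At e (p (g t)) → DifferentiableAt ℂ (fun s => e (p (g s))) t

open Classical in
/-- The function `u` on the subset `V₁` of `E` (extended by `0`) is pluriharmonic along `V₁`, with
gradient bounded by `B` (tested on holomorphic maps to `E` with values in `V₁`). -/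
def Along (p : E → X) (w : Chart n X → Cm n → Matrix (Fin n) (Fin n) ℂ) (V₁ : Set E)
    (u : V₁ → ℝ) (B : ℝ) : Prop :=
  ∀ (k : ℕ) (g : Cm k → E) (t : Cm k),
    (∀ᶠ s in 𝓝 t, g s ∈ V₁ ∧ HolTo (n := n) p g s) →
    (∀ᶠ s in 𝓝 t, ContDiffAt ℝ ∞ (fun s => if h : g s ∈ V₁ then u ⟨g s, h⟩ else 0) s ∧
      cHess (fun s => if h : g s ∈ V₁ then u ⟨g s, h⟩ else 0) s = 0) ∧
    ∀ e : Chart n X, At e (p (g t)) → ∀ v : Cm k,
      fderiv ℝ (fun s => if h : g s ∈ V₁ then u ⟨g s, h⟩ else 0) t v ^ 2 ≤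
        B * (∑ i, ∑ j, w e (e (p (g t))) i j * fderiv ℂ (fun s => e (p (g s))) t v i *
          conj (fderiv ℂ (fun s => e (p (g s))) t v j)).re

/-- `G` is a subgroup of finite index of the group `Γ` of the covering `E → X`, with first Betti number
`2 N` maximal; `F : E → ℂᴺ` is the lift of the Albanese map: holomorphic, with bounded derivative,
`F (g y) = F y + c g` for `g ∈ G`; the periods `c g` form a lattice; `K` is the kernel of `c`. -/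
structure Alb {Γ : Type} [Group Γ] [MulAction Γ E] (p : E → X)
    (w : Chart n X → Cm n → Matrix (Fin n) (Fin n) ℂ) (G K : Subgroup Γ) {N : ℕ}
    (F : E → Cm N) (c : Γ → Cm N) : Prop where
  fi : G.FiniteIndex
  hol : ∃ B, HolB p w F B
  equiv : ∀ g ∈ G, ∀ y, F (g • y) = F y + c g
  mem : ∀ g, g ∈ K ↔ g ∈ G ∧ c g = 0
  disc : ∀ R : ℝ, {v | (∃ g ∈ G, c g = v) ∧ ‖v‖ ≤ R}.Finite
  span : Submodule.span ℝ (c '' (G : Set Γ)) = ⊤
  max : ∀ G' : Subgroup Γ, G'.FiniteIndex → G' ≤ G → ∀ φ : Γ → ℝ,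
    (∀ g ∈ G', ∀ h ∈ G', φ (g * h) = φ g + φ h) → ∀ g ∈ G', c g = 0 → φ g = 0

end

/-- **WALB** (S0, S1, S2 and the lattice). -/
def AlbStmt : Prop :=
  ∀ (n : ℕ) (X : Type) [TopologicalSpace X] [T2Space X] [CompactSpace X] [ConnectedSpace X]
    [ChartedSpace (Cm n) X] [IsManifold 𝓘(ℂ, Cm n) ω X]
    (w : Chart n X → Cm n → Matrix (Fin n) (Fin n) ℂ), IsKahler w →
    ∀ Φ : Cm n → X, PolyMap w Φ →
    ∀ (E Γ : Type) [TopologicalSpace E] [SimplyConnectedSpace E] [Group Γ] [MulAction Γ E]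
      (p : E → X), IsGalois Γ p →
    ∃ (G K : Subgroup Γ) (N : ℕ) (F : E → Cm N) (c : Γ → Cm N), Alb p w G K F c

/-- **WS3**: `P = F ∘ Φ~` is polynomial, of rank `N` somewhere. -/
def RankStmt : Prop :=
  ∀ (n : ℕ) (X : Type) [TopologicalSpace X] [T2Space X] [CompactSpace X] [ConnectedSpace X]
    [ChartedSpace (Cm n) X] [IsManifold 𝓘(ℂ, Cm n) ω X]
    (w : Chart n X → Cm n → Matrix (Fin n) (Fin n) ℂ), IsKahler w →
    ∀ Φ : Cm n → X, PolyMap w Φ →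
    ∀ (E Γ : Type) [TopologicalSpace E] [ConnectedSpace E] [Group Γ] [MulAction Γ E]
      (p : E → X), IsGalois Γ p →
    ∀ (G K : Subgroup Γ) (N : ℕ) (F : E → Cm N) (c : Γ → Cm N), Alb p w G K F c →
    ∀ Φl : Cm n → E, Continuous Φl → (∀ ζ, p (Φl ζ) = Φ ζ) →
    ∃ P : Fin N → MvPolynomial (Fin n) ℂ, (∀ ζ i, F (Φl ζ) i = MvPolynomial.eval ζ (P i)) ∧
      ∃ ζ, Reg (n := n) p F (Φl ζ) ∧ Function.Injective (mfderiv 𝓘(ℂ, Cm n) 𝓘(ℂ, Cm n) Φ ζ) ∧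
        Function.Surjective (fderiv ℂ (fun ζ => F (Φl ζ)) ζ)

/-- **WS4**: for generic values the fibre of `F` is regular and has finitely many components;
`S` is the stabiliser in `K` of the component of `x`. -/
def S4Stmt : Prop :=
  ∀ (n : ℕ) (X : Type) [TopologicalSpace X] [T2Space X] [CompactSpace X] [ConnectedSpace X]
    [ChartedSpace (Cm n) X] [IsManifold 𝓘(ℂ, Cm n) ω X]
    (w : Chart n X → Cm n → Matrix (Fin n) (Fin n) ℂ), IsKahler w →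
    ∀ Φ : Cm n → X, PolyMap w Φ →
    ∀ (E Γ : Type) [TopologicalSpace E] [ConnectedSpace E] [Group Γ] [MulAction Γ E]
      (p : E → X), IsGalois Γ p →
    ∀ (G K : Subgroup Γ) (N : ℕ) (F : E → Cm N) (c : Γ → Cm N), Alb p w G K F c →
    ∀ Φl : Cm n → E, Continuous Φl → (∀ ζ, p (Φl ζ) = Φ ζ) →
    ∀ P : Fin N → MvPolynomial (Fin n) ℂ, (∀ ζ i, F (Φl ζ) i = MvPolynomial.eval ζ (P i)) →
    (∃ ζ, Function.Surjective (fderiv ℂ (fun ζ => F (Φl ζ)) ζ)) →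
    ∃ T : Set (Cm N), IsClosed T ∧ interior T = ∅ ∧ ∀ x : E, F x ∉ T →
      (∀ y, F y = F x → Reg (n := n) p F y) ∧
      ∃ S : Subgroup Γ, S ≤ K ∧ (S.subgroupOf K).FiniteIndex ∧
        (∀ s ∈ S, ∀ y ∈ connectedComponentIn (F ⁻¹' {F x}) x,
          s • y ∈ connectedComponentIn (F ⁻¹' {F x}) x) ∧
        (∃ O : Set E, IsOpen O ∧ connectedComponentIn (F ⁻¹' {F x}) x = F ⁻¹' {F x} ∩ O) ∧
        ∃ Q : Set E, IsCompact Q ∧ ∀ y ∈ connectedComponentIn (F ⁻¹' {F x}) x,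
          ∃ s ∈ S, s • y ∈ Q

/-- **WGEO**: a regular connected piece `V₁` of a fibre, on which the subgroup `S` acts cocompactly, is a
Galois covering of a compact Kähler manifold `Y`. -/
def GeoStmt : Prop :=
  ∀ (n : ℕ) (X : Type) [TopologicalSpace X] [T2Space X] [CompactSpace X] [ConnectedSpace X]
    [ChartedSpace (Cm n) X] [IsManifold 𝓘(ℂ, Cm n) ω X]
    (w : Chart n X → Cm n → Matrix (Fin n) (Fin n) ℂ), IsKahler w →
    ∀ (E Γ : Type) [TopologicalSpace E] [ConnectedSpace E] [Group Γ] [MulAction Γ E]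
      (p : E → X), IsGalois Γ p →
    ∀ (N : ℕ) (F : E → Cm N), (∃ B, HolB p w F B) → ∀ (S : Subgroup Γ) (y₀ : Cm N) (V₁ : Set E),
    (∀ s ∈ S, ∀ y, F (s • y) = F y) → (∀ s ∈ S, ∀ y ∈ V₁, s • y ∈ V₁) → IsConnected V₁ →
    (∀ y ∈ V₁, F y = y₀) → (∃ O : Set E, IsOpen O ∧ V₁ = F ⁻¹' {y₀} ∩ O) → IsClosed V₁ →
    (∀ y ∈ V₁, Reg (n := n) p F y) → (∃ Q : Set E, IsCompact Q ∧ ∀ y ∈ V₁, ∃ s ∈ S, s • y ∈ Q) →
    ∃ (m : ℕ) (Y : Type) (_ : TopologicalSpace Y) (_ : T2Space Y) (_ : CompactSpace Y)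
      (_ : ConnectedSpace Y) (_ : ChartedSpace (Cm m) Y) (_ : IsManifold 𝓘(ℂ, Cm m) ω Y)
      (w₁ : Chart m Y → Cm m → Matrix (Fin m) (Fin m) ℂ) (_ : MulAction S V₁) (p₁ : V₁ → Y),
      m + N = n ∧ IsKahler w₁ ∧ (∀ (s : S) (y : V₁), ((s • y : V₁) : E) = (s : Γ) • (y : E)) ∧
      IsGalois S p₁ ∧ ∀ u B, IsPHB p₁ w₁ u B → Along p w V₁ u B

/-- **WFD**: the pluriharmonic functions with bounded gradient along the component of `Φ~ ζ₁` in a
regular fibre form a finite-dimensional space. -/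
def FDStmt : Prop :=
  ∀ (n : ℕ) (X : Type) [TopologicalSpace X] [T2Space X] [CompactSpace X] [ConnectedSpace X]
    [ChartedSpace (Cm n) X] [IsManifold 𝓘(ℂ, Cm n) ω X]
    (w : Chart n X → Cm n → Matrix (Fin n) (Fin n) ℂ), IsKahler w →
    ∀ Φ : Cm n → X, PolyMap w Φ →
    ∀ (E : Type) [TopologicalSpace E] [ConnectedSpace E] (p : E → X), IsCoveringMap p →
    ∀ (N : ℕ) (F : E → Cm N), (∃ B, HolB p w F B) →
    ∀ Φl : Cm n → E, Continuous Φl → (∀ ζ, p (Φl ζ) = Φ ζ) →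
    ∀ P : Fin N → MvPolynomial (Fin n) ℂ, (∀ ζ i, F (Φl ζ) i = MvPolynomial.eval ζ (P i)) →
    (∃ ζ, Function.Surjective (fderiv ℂ (fun ζ => F (Φl ζ)) ζ)) →
    ∃ b : MvPolynomial (Fin n) ℂ, b ≠ 0 ∧ ∀ ζ₁, MvPolynomial.eval ζ₁ b ≠ 0 →
      Function.Injective (mfderiv 𝓘(ℂ, Cm n) 𝓘(ℂ, Cm n) Φ ζ₁) →
      (∀ y, F y = F (Φl ζ₁) → Reg (n := n) p F y) →
      ∃ V : Submodule ℝ (connectedComponentIn (F ⁻¹' {F (Φl ζ₁)}) (Φl ζ₁) → ℝ),
        FiniteDimensional ℝ V ∧ ∀ u,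
          (∃ B, Along p w (connectedComponentIn (F ⁻¹' {F (Φl ζ₁)}) (Φl ζ₁)) u B) → u ∈ V

/-- **WFIB** -/
def FibConcl : Prop :=
  ∀ (n : ℕ) (X : Type) [TopologicalSpace X] [T2Space X] [CompactSpace X] [ConnectedSpace X]
    [ChartedSpace (Cm n) X] [IsManifold 𝓘(ℂ, Cm n) ω X]
    (w : Chart n X → Cm n → Matrix (Fin n) (Fin n) ℂ), IsKahler w →
    ∀ Φ : Cm n → X, PolyMap w Φ →
    ∀ (E Γ : Type) [TopologicalSpace E] [SimplyConnectedSpace E] [Group Γ] [MulAction Γ E]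
      (p : E → X), IsGalois Γ p → SubexpGrowth Γ →
    ∀ (G K : Subgroup Γ) (N : ℕ) (F : E → Cm N) (c : Γ → Cm N), Alb p w G K F c →
    Infinite K → Group.FG K ∧ VirtIndicable K

/-- **WFIB**: assembly. Choose `ζ₁` with `b ζ₁ ≠ 0`, `F (Φ~ ζ₁) ∉ T`, `dΦ` injective at `ζ₁`. Then `Y`,
`S`: `Part1`, `V17`, `V18`, `V15` (finite generation). -/
def FibStmt : Prop :=
  RankStmt → S4Stmt → GeoStmt → FDStmt → Part1 → V15Stmt → V17Stmt → V18Stmt → FibConcl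

/-- **WGRP** (S6, S7a). -/
def GrpStmt : Prop :=
  ∀ (Γ : Type) [Group Γ], SubexpGrowth Γ → Group.FG Γ → ∀ (G K : Subgroup Γ), G.FiniteIndex →
    ∀ (N : ℕ) (c : Γ → Cm N), (∀ g ∈ G, ∀ h ∈ G, c (g * h) = c g + c h) →
    (∀ g, g ∈ K ↔ g ∈ G ∧ c g = 0) → (∀ R : ℝ, {v | (∃ g ∈ G, c g = v) ∧ ‖v‖ ≤ R}.Finite) →
    Submodule.span ℝ (c '' (G : Set Γ)) = ⊤ → Group.FG K → VirtIndicable K →
    ∃ G₂ : Subgroup Γ, G₂.FiniteIndex ∧ G₂ ≤ G ∧ ∃ (f : Γ → ℝ) (B : Cm N →ₗ[ℝ] Cm N →ₗ[ℝ] ℝ),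
      (∀ g' ∈ G₂, ∀ g ∈ G₂, f (g' * g) = f g' + f g + B (c g') (c g)) ∧
      ∃ k ∈ G₂, c k = 0 ∧ f k ≠ 0

/-- **WSTK** (S7b with the covering space: `V15`, `Coc.sub`). -/
def StkStmt : Prop :=
  ∀ (n : ℕ) (X : Type) [TopologicalSpace X] [T2Space X] [CompactSpace X] [ConnectedSpace X]
    [ChartedSpace (Cm n) X] [IsManifold 𝓘(ℂ, Cm n) ω X]
    (w : Chart n X → Cm n → Matrix (Fin n) (Fin n) ℂ), IsKahler w →
    ∀ (E Γ : Type) [TopologicalSpace E] [ConnectedSpace E] [Group Γ] [MulAction Γ E]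
      (p : E → X), IsGalois Γ p →
    ∀ (N : ℕ) (F : E → Cm N), (∃ B, HolB p w F B) → (∃ y, Reg (n := n) p F y) →
    ∀ (G₂ : Subgroup Γ) (c : Γ → Cm N), G₂.FiniteIndex → (∀ g ∈ G₂, ∀ y, F (g • y) = F y + c g) →
    ∀ (f : Γ → ℝ) (B : Cm N →ₗ[ℝ] Cm N →ₗ[ℝ] ℝ),
      (∀ g' ∈ G₂, ∀ g ∈ G₂, f (g' * g) = f g' + f g + B (c g') (c g)) → ∀ x y, B x y = B y x

/-- **WFIN**: if `K` is finite, `Γ` is virtually abelian. -/
def FinStmt : Prop :=
  ∀ (Γ : Type) [Group Γ], Group.FG Γ → ∀ (G K : Subgroup Γ), G.FiniteIndex →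
    ∀ (N : ℕ) (c : Γ → Cm N), (∀ g ∈ G, ∀ h ∈ G, c (g * h) = c g + c h) →
    (∀ g, g ∈ K ↔ g ∈ G ∧ c g = 0) → Finite K → VirtuallyAbelian Γ

/-- Lift of `Φ` to the covering. -/
def LiftStmt : Prop :=
  ∀ (n : ℕ) (X : Type) [TopologicalSpace X] (E : Type) [TopologicalSpace E] (p : E → X),
    IsCoveringMap p → Function.Surjective p → ∀ Φ : Cm n → X, Continuous Φ →
    ∃ Φl : Cm n → E, Continuous Φl ∧ ∀ ζ, p (Φl ζ) = Φ ζ

/-- Theorem W for the group of a simply connected covering. -/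
def MainSC : Prop :=
  ∀ (n : ℕ) (X : Type) [TopologicalSpace X] [T2Space X] [CompactSpace X] [ConnectedSpace X]
    [ChartedSpace (Cm n) X] [IsManifold 𝓘(ℂ, Cm n) ω X]
    (w : Chart n X → Cm n → Matrix (Fin n) (Fin n) ℂ), IsKahler w →
    ∀ Φ : Cm n → X, PolyMap w Φ →
    ∀ (E Γ : Type) [TopologicalSpace E] [SimplyConnectedSpace E] [Group Γ] [MulAction Γ E]
      (p : E → X), IsGalois Γ p → SubexpGrowth Γ → VirtuallyAbelian Γ

/-- Theorem W for the fundamental group. -/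
def MainPi : Prop :=
  ∀ (n : ℕ) (X : Type) [TopologicalSpace X] [T2Space X] [CompactSpace X] [ConnectedSpace X]
    [ChartedSpace (Cm n) X] [IsManifold 𝓘(ℂ, Cm n) ω X]
    (w : Chart n X → Cm n → Matrix (Fin n) (Fin n) ℂ), IsKahler w →
    ∀ Φ : Cm n → X, PolyMap w Φ → ∀ x : X, SubexpGrowth (FundamentalGroup X x) →
    VirtuallyAbelian (FundamentalGroup X x)

/-- **WPI1**: universal covering (as in `H465/V19.lean`). -/
def PiStmt : Prop := MainSC → MainPi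

theorem alb_add {n : ℕ} {X : Type} [TopologicalSpace X] [ChartedSpace (Cm n) X]
    {E : Type} [TopologicalSpace E] [Nonempty E] {Γ : Type} [Group Γ] [MulAction Γ E] {p : E → X}
    {w : Chart n X → Cm n → Matrix (Fin n) (Fin n) ℂ} {G K : Subgroup Γ} {N : ℕ}
    {F : E → Cm N} {c : Γ → Cm N} (h : Alb p w G K F c) :
    ∀ g ∈ G, ∀ k ∈ G, c (g * k) = c g + c k := by
  intro g hg k hk
  obtain ⟨y⟩ := ‹Nonempty E›
  have h1 := h.equiv (g * k) (G.mul_mem hg hk) y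
  rw [mul_smul, h.equiv g hg, h.equiv k hk, add_assoc] at h1
  have h2 := add_left_cancel h1
  rw [← h2, add_comm]

theorem mainSC_of (h15 : V15Stmt) (hA : AlbStmt) (hR : RankStmt) (hF : FibConcl) (hG : GrpStmt)
    (hS : StkStmt) (hN : FinStmt) (hL : LiftStmt) : MainSC := by
  intro n X _ _ _ _ _ _ w hw Φ hΦ E Γ _ _ _ _ p hp hgr
  obtain ⟨_, _, _, hfg, -⟩ := h15 n X w hw E Γ p hp
  obtain ⟨G, K, N, F, c, hAl⟩ := hA n X w hw Φ hΦ E Γ p hp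
  have hadd := alb_add hAl
  by_cases hK : Finite K
  · exact hN Γ hfg G K hAl.fi N c hadd hAl.mem hK
  exfalso
  rw [not_finite_iff_infinite] at hK
  obtain ⟨hKf, hKv⟩ := hF n X w hw Φ hΦ E Γ p hp hgr G K N F c hAl hK
  obtain ⟨G₂, hG₂, hle, f, B, hf, k, hk, hk0, hfk⟩ :=
    hG Γ hgr hfg G K hAl.fi N c hadd hAl.mem hAl.disc hAl.span hKf hKv
  obtain ⟨Φl, hΦl, hpΦ⟩ := hL n X E p hp.cov hp.surj Φ hΦ.holo.continuous
  obtain ⟨P, -, ζ, hζ, -⟩ := hR n X w hw Φ hΦ E Γ p hp G K N F c hAl Φl hΦl hpΦ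
  have hsym := hS n X w hw E Γ p hp N F hAl.hol ⟨_, hζ⟩ G₂ c hG₂
    (fun g hg y => hAl.equiv g (hle hg) y) f B hf
  have h1 := hAl.max G₂ hG₂ hle (fun g => f g - B (c g) (c g) / 2) (by
    intro g hg h hh
    show f (g * h) - B (c (g * h)) (c (g * h)) / 2 = _
    rw [hf g hg h hh, hadd g (hle hg) h (hle hh)]
    simp only [map_add, LinearMap.add_apply]
    rw [hsym (c h) (c g)]
    ring) k hk hk0
  apply hfk
  rw [hk0] at h1
  simpa using h1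

end Vale.Agent.P284.H894.W
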