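import Vale.Agent.P284.H894.W.Spec2
import Vale.Agent.P284.H894.G.Final

/-! # P284 (helper894): theorem W, corollaries for projective manifolds -/

open scoped Manifold ContDiff Topology
open Filter Set Metric

noncomputable section

namespace Vale.Agent.P284.H894.W

open Vale.Agent.P272.K Vale.Agent.P284.H248 Vale.Agent.P284.H894 Vale.Agent.P284.H894.G
  Vale.Agent.P284.H894.V

/-- a point of the image of `Φ` lies on an entire curve through `Φ 0` -/
theorem onCurve_of_range {n : ℕ} {X : Type} [TopologicalSpace X] [ChartedSpace (Cm n) X]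
    {Φ : Cm n → X} (hΦ : ContMDiff 𝓘(ℂ, Cm n) 𝓘(ℂ, Cm n) ω Φ) (ζ : Cm n) :
    OnCurve n X (Φ ζ) (Φ 0) := by
  refine ⟨fun t => Φ ((1 - t) • ζ), ?_, by simp, by simp⟩
  refine hΦ.comp ?_
  refine ContDiff.contMDiff ?_
  exact (contDiff_const.sub contDiff_id).smul contDiff_const

/-- Theorem W for projective manifolds: no hypothesis on the fundamental group. -/
theorem proj_of (hM : MainPi2) {n : ℕ} {X : Type} [TopologicalSpace X] [T2Space X] [CompactSpace X]
    [ConnectedSpace X] [ChartedSpace (Cm n) X] [IsManifold 𝓘(ℂ, Cm n) ω X]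
    (w : Chart n X → Cm n → Matrix (Fin n) (Fin n) ℂ) (hw : IsKahler w)
    (L : LineBundle n X) (hL : Positive L) (Φ : Cm n → X) (hΦ : FiniteOrder w Φ) :
    (∀ (U : Set X) (x : X) (Q : Set X), IsOpen U → x ∈ U →
      (∀ c : Path x x, ∃ c' : Path x x, c.Homotopic c' ∧ ∀ t, c' t ∈ U) →
      Q.Countable → (∀ y ∈ U, ∃ q ∈ Q, Chain n X y q) →
      VirtuallyAbelian (FundamentalGroup X x)) ∧
    (∀ (U : Set X) (x : X), IsOpen U → x ∈ U → U ⊆ range Φ →
      (∀ c : Path x x, ∃ c' : Path x x, c.Homotopic c' ∧ ∀ t, c' t ∈ U) →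
      VirtuallyAbelian (FundamentalGroup X x)) ∧
    (Function.Surjective Φ → ∀ x, VirtuallyAbelian (FundamentalGroup X x)) := by
  have h1 : ∀ (U : Set X) (x : X) (Q : Set X), IsOpen U → x ∈ U →
      (∀ c : Path x x, ∃ c' : Path x x, c.Homotopic c' ∧ ∀ t, c' t ∈ U) →
      Q.Countable → (∀ y ∈ U, ∃ q ∈ Q, Chain n X y q) →
      VirtuallyAbelian (FundamentalGroup X x) := fun U x Q hU hx hc hQ hch =>
    hM n X w hw Φ hΦ x (gFinal n X L hL U x Q hU hx hc hQ hch)
  have h2 : ∀ (U : Set X) (x : X), IsOpen U → x ∈ U → U ⊆ range Φ →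
      (∀ c : Path x x, ∃ c' : Path x x, c.Homotopic c' ∧ ∀ t, c' t ∈ U) →
      VirtuallyAbelian (FundamentalGroup X x) := by
    intro U x hU hx hUr hc
    refine h1 U x {Φ 0} hU hx hc (countable_singleton _) fun y hy => ⟨Φ 0, rfl, ?_⟩
    obtain ⟨ζ, rfl⟩ := hUr hy
    exact Relation.ReflTransGen.single (onCurve_of_range hΦ.holo ζ)
  refine ⟨h1, h2, fun hs x => ?_⟩
  exact h2 univ x isOpen_univ (mem_univ _) (fun y _ => hs y)
    fun c => ⟨c, Path.Homotopic.refl c, fun t => mem_univ _⟩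

end Vale.Agent.P284.H894.W
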