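import Vale.Agent.P284.H894.W.Fib
import Vale.Agent.P284.H894.W.Cor
import Vale.Agent.P284.H894.V.Final
import Vale.Agent.P284.H10.S4
import Vale.Agent.P284.H119.Rank
import Vale.Agent.P284.H639.FD2
import Vale.Agent.P284.H639.V15
import Vale.Agent.P284.H730.S5G4
import Vale.Agent.P284.H731.Alb
import Vale.Agent.P284.H446.S1
import Vale.Agent.P284.H446.FibQ
import Vale.Agent.P284.H409.Grp
import Vale.Agent.P284.H409.GrpA
import Vale.Agent.P284.H409.Fin
import Vale.Agent.P284.H5.PiA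
import Vale.Agent.P284.H35.Stk
import Vale.Agent.P284.H66.S7b
import Vale.Agent.P284.H977.Lift
import Vale.Agent.P284.H977.Pi1

/-! # P284, theorems W and Q (helper894): assembly -/

noncomputable section

namespace Vale.Agent.P284.H894.W

open Vale.Agent.P284.H894.V

theorem albStmt2 : AlbStmt2 := H731.Alb.albStmt2_of (H446.V.s1_of exConcl v14Concl)

theorem stkStmt : StkStmt := H35.W.stk_of H66.S7.s7bStmt

theorem fibConcl2 : FibConcl2 :=
  fibStmt2 H119.R.rankStmt2 H10.s4Stmt2 H730.G.geoStmt H639.FD.fdStmt2 part1 H639.V.v15Stmt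
    H465.V17.v17Stmt H731.V.v18Stmt

theorem mainSC2 : MainSC2 :=
  mainSC2_of H639.V.v15Stmt albStmt2 H119.R.rankStmt2 fibConcl2 H409.grpStmt stkStmt
    H409.finStmt H977.liftStmt

theorem mainPi2 : MainPi2 := H977.piStmt2 mainSC2

theorem fibConclQ : H409.A.FibConclQ :=
  H446.QC.fibStmtQ H119.R.rankStmt2 H10.s4Stmt2 H730.G.geoStmt H639.FD.fdStmt2 part1
    H639.V.v15Stmt H465.V17.v17Stmt H731.V.v18Stmt

/-- Theorem Q -/
theorem mainQ : H409.A.MainQ :=
  H409.A.mainQ_of H639.V.v15Stmt albStmt2 H119.R.rankStmt2 fibConclQ H409.A.grpQStmt stkStmt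
    H409.A.finAStmt H977.liftStmt

theorem mainPiQ : H409.A.MainPiQ := H5.A.piStmtA.2 mainQ

end Vale.Agent.P284.H894.W
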