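import Vale.Agent.P284.H894.V.Defs
import Mathlib.AlgebraicTopology.FundamentalGroupoid.SimplyConnected

/-!
# P284 (helper894, helper409): definitions for theorem W. FROZEN.
-/

open scoped Manifold ContDiff Topology ComplexConjugate
open Filter Set Metric MeasureTheory

noncomputable section

namespace Vale.Agent.P284.H894.W

open Vale.Agent.P272.K Vale.Agent.P284.H894.V

/-- `Φ : ℂⁿ → X` is holomorphic, nondegenerate, and its derivative has polynomial growth (in the
metric `w`). -/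
structure PolyMap {n : ℕ} {X : Type} [TopologicalSpace X] [ChartedSpace (Cm n) X]
    (w : Chart n X → Cm n → Matrix (Fin n) (Fin n) ℂ) (Φ : Cm n → X) : Prop where
  holo : ContMDiff 𝓘(ℂ, Cm n) 𝓘(ℂ, Cm n) ω Φ
  nondeg : ∃ ζ, Function.Injective (mfderiv 𝓘(ℂ, Cm n) 𝓘(ℂ, Cm n) Φ ζ)
  growth : ∃ (C : ℝ) (s : ℕ), ∀ ζ, enDens w Φ ζ ≤ C * (1 + ‖ζ‖) ^ s

end Vale.Agent.P284.H894.W
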