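import Vale.Agent.P284.H894.W.Fib
import Vale.Agent.P284.H639.FD2
import Vale.Agent.P284.H5.C2

/-!
# P284, theorem W (helper894): first half of `RankStmt2`: `F ∘ Φ~` is polynomial.
-/

open scoped Manifold ContDiff Topology Pointwise ComplexConjugate ComplexOrder
open Filter Set Metric MeasureTheory

noncomputable section

namespace Vale.Agent.P284.H894.W

open Vale.Agent.P272.K Vale.Agent.P284.H248 Vale.Agent.P284.H894 Vale.Agent.P284.H894.G
  Vale.Agent.P284.H894.V Vale.Agent.P284.H5.V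

section
variable {n : ℕ} {X : Type} [TopologicalSpace X] [ChartedSpace (Cm n) X]
  [IsManifold 𝓘(ℂ, Cm n) ω X]
  {E : Type} [TopologicalSpace E] {p : E → X}
  {w : Chart n X → Cm n → Matrix (Fin n) (Fin n) ℂ} {Φ : Cm n → X} {Φl : Cm n → E}
  {N : ℕ} {F : E → Cm N} {B : ℝ}

theorem FΦ_ev (hΦl : Continuous Φl) (hpΦ : ∀ ζ, p (Φl ζ) = Φ ζ) {ζ : Cm n} {e : Chart n X}
    {f : Cm n → Cm N} (h1 : ∀ᶠ y' in 𝓝 (Φl ζ), F y' = f (e (p y'))) :
    (fun ξ => F (Φl ξ)) =ᶠ[𝓝 ζ] fun ξ => f (e (Φ ξ)) := by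
  have h2 := hΦl.continuousAt.eventually h1
  filter_upwards [h2] with ξ hξ
  rw [hξ, hpΦ]

theorem FΦ_diff (hΦ : ContMDiff 𝓘(ℂ, Cm n) 𝓘(ℂ, Cm n) ω Φ) (hΦl : Continuous Φl)
    (hpΦ : ∀ ζ, p (Φl ζ) = Φ ζ) (hF : HolB p w F B) :
    Differentiable ℂ fun ξ => F (Φl ξ) := by
  intro ζ
  have hAt : At (chartAt (Cm n) (Φ ζ)) (p (Φl ζ)) := by rw [hpΦ]; exact at_chartAt _
  obtain ⟨f, h1, h2, -⟩ := hF (Φl ζ) _ hAt
  have h3 := FΦ_ev hΦl hpΦ h1
  rw [hpΦ] at h2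
  have h4 : DifferentiableAt ℂ (fun ξ => chartAt (Cm n) (Φ ζ) (Φ ξ)) ζ :=
    (tau_smooth hΦ (at_chartAt _)).differentiableAt (by simp)
  exact (DifferentiableAt.comp (g := f) ζ h2.self_of_nhds h4).congr_of_eventuallyEq h3

theorem FΦ_bound (hw : IsHermitian w) (hΦ : ContMDiff 𝓘(ℂ, Cm n) 𝓘(ℂ, Cm n) ω Φ)
    (hΦl : Continuous Φl) (hpΦ : ∀ ζ, p (Φl ζ) = Φ ζ) (hF : HolB p w F B) (ζ v : Cm n) :
    ‖fderiv ℂ (fun ξ => F (Φl ξ)) ζ v‖ ^ 2 ≤ |B| * (n * ‖v‖ ^ 2 * enDens w Φ ζ) := by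
  set e := chartAt (Cm n) (Φ ζ) with he
  have hAt' : At e (Φ ζ) := at_chartAt _
  have hAt : At e (p (Φl ζ)) := by rw [hpΦ]; exact hAt'
  obtain ⟨f, h1, h2, h3⟩ := hF (Φl ζ) e hAt
  have h4 := FΦ_ev hΦl hpΦ h1
  rw [hpΦ] at h2 h3
  have h5 : DifferentiableAt ℂ (fun ξ => e (Φ ξ)) ζ :=
    (tau_smooth hΦ hAt').differentiableAt (by simp)
  have h6 : fderiv ℂ (fun ξ => F (Φl ξ)) ζ = (fderiv ℂ f (e (Φ ζ))).comp
      (fderiv ℂ (fun ξ => e (Φ ξ)) ζ) := by
    rw [h4.fderiv_eq]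
    exact fderiv_comp (g := f) ζ h2.self_of_nhds h5
  rw [h6]
  have h7 := h3 (fderiv ℂ (fun ξ => e (Φ ξ)) ζ v)
  have h8 := H639.FD.qf_le_enDens hw hΦ hAt' v
  have h9 : 0 ≤ (qf (w e (e (Φ ζ))) (fderiv ℂ (fun ξ => e (Φ ξ)) ζ v)).re :=
    qf_nonneg (hw.posDef _ _ hAt') _
  refine h7.trans ?_
  calc B * (∑ j, ∑ k, w e (e (Φ ζ)) j k * (fderiv ℂ (fun ξ => e (Φ ξ)) ζ v) j *
        conj ((fderiv ℂ (fun ξ => e (Φ ξ)) ζ v) k)).re
      ≤ |B| * (qf (w e (e (Φ ζ))) (fderiv ℂ (fun ξ => e (Φ ξ)) ζ v)).re :=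
        mul_le_mul_of_nonneg_right (le_abs_self B) h9
    _ ≤ _ := mul_le_mul_of_nonneg_left h8 (abs_nonneg B)

theorem diff_contDiff {h : Cm n → ℂ} (hd : Differentiable ℂ h) : ContDiff ℂ ω h := by
  rw [contDiff_iff_contDiffAt]
  intro z
  exact (Vale.Agent.P268.analyticAt_of_differentiableOn isOpen_univ hd.differentiableOn
    (mem_univ z)).contDiffAt

theorem hol_of_diff {h : Cm n → ℂ} (hd : Differentiable ℂ h) : Hol h := by
  refine ⟨?_, fun z k => ?_⟩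
  · exact ((diff_contDiff hd).restrict_scalars ℝ).of_le (by exact le_top)
  · exact dzb_of_holo (hd z)

/-- `F ∘ Φ~` is polynomial. -/
theorem poly_half (hw : IsHermitian w) (hΦ : FiniteOrder w Φ) (hΦl : Continuous Φl)
    (hpΦ : ∀ ζ, p (Φl ζ) = Φ ζ) (hF : HolB p w F B) :
    ∃ P : Fin N → MvPolynomial (Fin n) ℂ, ∀ ζ i, F (Φl ζ) i = MvPolynomial.eval ζ (P i) := by
  have hd := FΦ_diff hΦ.holo hΦl hpΦ hF
  suffices H : ∀ i, ∃ q : MvPolynomial (Fin n) ℂ, ∀ ζ, F (Φl ζ) i = MvPolynomial.eval ζ q by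
    choose P hP using H
    exact ⟨P, fun ζ i => hP i ζ⟩
  intro i
  set h : Cm n → ℂ := fun ζ => F (Φl ζ) i with hh
  have hdi : Differentiable ℂ h := fun ζ => (differentiableAt_pi.1 (hd ζ)) i
  obtain ⟨C, ρ, hC⟩ := hΦ.order
  obtain ⟨m, hm⟩ := exists_nat_ge (ρ / 2)
  have hm' : ρ ≤ 2 * m := by linarith
  have key : ∀ j, (fun ζ => fderiv ℂ h ζ (Pi.single j 1)) ∈ PG n m := by
    intro j
    have hcd : Differentiable ℂ fun ζ => fderiv ℂ h ζ (Pi.single j 1) := by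
      have := ((diff_contDiff hdi).fderiv_right (m := ω) (by simp)).differentiable (by simp)
      exact this.clm_apply (differentiable_const _)
    refine mem_PG_of_L2 (hol_of_diff hcd) (C := |B| * n * C) (ρ := ρ) (fun r hr => ?_) hm'
    have h1 : ∀ ζ, ‖fderiv ℂ h ζ (Pi.single j 1)‖ ^ 2 ≤ |B| * n * enDens w Φ ζ := by
      intro ζ
      have h2 := FΦ_bound hw hΦ.holo hΦl hpΦ hF ζ (Pi.single j 1)
      have h3 : fderiv ℂ h ζ (Pi.single j 1) =
          (fderiv ℂ (fun ξ => F (Φl ξ)) ζ (Pi.single j 1)) i := by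
        rw [hh, fderiv_apply (hd ζ)]
        rfl
      have h4 : ‖(Pi.single j 1 : Cm n)‖ = 1 := by
        rw [Pi.norm_single, norm_one]
      rw [h4] at h2
      rw [h3]
      refine (pow_le_pow_left₀ (norm_nonneg _) (norm_le_pi_norm _ i) 2).trans (h2.trans ?_)
      rw [one_pow, mul_one, mul_assoc]
    have hen := enDens_continuous hw hΦ.holo
    calc ∫ z in ball (0 : Cm n) r, ‖fderiv ℂ h z (Pi.single j 1)‖ ^ 2
        ≤ ∫ z in ball (0 : Cm n) r, |B| * n * enDens w Φ z := by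
          refine setIntegral_mono ?_ ?_ h1
          · exact (((hcd.continuous.norm.pow 2).continuousOn).integrableOn_compact
              (isCompact_closedBall 0 r)).mono_set ball_subset_closedBall
          · exact ((((continuous_const.mul hen)).continuousOn).integrableOn_compact
              (isCompact_closedBall 0 r)).mono_set ball_subset_closedBall
      _ = |B| * n * ∫ z in ball (0 : Cm n) r, enDens w Φ z := by
          rw [integral_const_mul]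
      _ ≤ |B| * n * (C * r ^ ρ) := mul_le_mul_of_nonneg_left (hC r hr) (by positivity)
      _ = _ := by ring
  choose hk C' hC' using key
  have hgr : ∃ C'' : ℝ, ∀ z, ‖h z‖ ≤ C'' * (1 + ‖z‖) ^ (m + 1) := by
    set A : ℝ := ∑ j, |C' j| with hA
    have hA0 : 0 ≤ A := Finset.sum_nonneg fun j _ => abs_nonneg _
    have h1 : ∀ z, ‖fderiv ℂ h z‖ ≤ A * (1 + ‖z‖) ^ m := by
      intro z
      refine ContinuousLinearMap.opNorm_le_bound _ (by positivity) fun v => ?_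
      have h2 : v = ∑ j, v j • (Pi.single j 1 : Cm n) := by
        funext k
        simp [Finset.sum_apply, Pi.single_apply]
      have h3 : fderiv ℂ h z v = ∑ j, v j • fderiv ℂ h z (Pi.single j 1) := by
        conv_lhs => rw [h2]
        rw [map_sum]
        exact Finset.sum_congr rfl fun j _ => map_smul _ _ _
      rw [h3]
      refine (norm_sum_le _ _).trans ?_
      rw [hA, Finset.sum_mul, Finset.sum_mul]
      refine Finset.sum_le_sum fun j _ => ?_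
      rw [norm_smul, mul_comm]
      refine mul_le_mul ?_ (norm_le_pi_norm v j) (norm_nonneg _) (by positivity)
      exact (hC' j z).trans (mul_le_mul_of_nonneg_right (le_abs_self _) (by positivity))
    refine ⟨‖h 0‖ + A, fun z => ?_⟩
    have h2 : ‖h z - h 0‖ ≤ A * (1 + ‖z‖) ^ m * ‖z - 0‖ := by
      refine Convex.norm_image_sub_le_of_norm_fderiv_le (𝕜 := ℂ)
        (s := closedBall (0 : Cm n) ‖z‖) (fun x _ => hdi x) (fun x hx => ?_)
        (convex_closedBall _ _) (by simp) (by simp)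
      refine (h1 x).trans (mul_le_mul_of_nonneg_left ?_ hA0)
      have h3 : ‖x‖ ≤ ‖z‖ := by simpa using hx
      exact pow_le_pow_left₀ (by positivity) (by linarith) m
    rw [sub_zero] at h2
    have h4 : (1 : ℝ) ≤ (1 + ‖z‖) ^ (m + 1) := one_le_pow₀ (by linarith [norm_nonneg z])
    have h5 : ‖h z‖ ≤ ‖h 0‖ + ‖h z - h 0‖ := by
      have := norm_add_le (h 0) (h z - h 0)
      rwa [add_sub_cancel] at this
    have h6 : A * (1 + ‖z‖) ^ m * ‖z‖ ≤ A * (1 + ‖z‖) ^ (m + 1) := by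
      rw [pow_succ, ← mul_assoc]
      exact mul_le_mul_of_nonneg_left (by linarith) (by positivity)
    have h7 : ‖h 0‖ ≤ ‖h 0‖ * (1 + ‖z‖) ^ (m + 1) := le_mul_of_one_le_right (norm_nonneg _) h4
    linarith
  obtain ⟨C'', hC''⟩ := hgr
  obtain ⟨q, -, hq⟩ := H5.C2.poly_of_growth hdi hC''
  exact ⟨q, hq⟩

end

end Vale.Agent.P284.H894.W
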